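import Mathlib

/-! Definitions for the proof of potential density on character varieties of curves. -/

namespace Vale.Agent.P002

open Matrix Filter Topology

abbrev Mat (r : ℕ) := Matrix (Fin r) (Fin r) ℂ

section Poly

variable {E F : Type} [AddCommGroup E] [Module ℂ E] [AddCommGroup F] [Module ℂ F]

/-- polynomial functions on a complex vector space -/
inductive IsPoly : (E → ℂ) → Prop
  | const (c : ℂ) : IsPoly fun _ => c
  | lin (l : E →ₗ[ℂ] ℂ) : IsPoly fun x => l x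
  | add {f g : E → ℂ} : IsPoly f → IsPoly g → IsPoly fun x => f x + g x
  | mul {f g : E → ℂ} : IsPoly f → IsPoly g → IsPoly fun x => f x * g x

/-- `φ` is a quotient of polynomials on `U`, the denominator has no zero on `U` -/
def Reg (U : Set E) (φ : E → ℂ) : Prop :=
  ∃ P Q : E → ℂ, IsPoly P ∧ IsPoly Q ∧ ∀ x ∈ U, Q x ≠ 0 ∧ φ x * Q x = P x

/-- vector valued regular maps -/
def RegF (U : Set E) (f : E → F) : Prop := ∀ l : F →ₗ[ℂ] ℂ, Reg U fun x => l (f x)

/-- basic Zariski open sets -/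
def Bas (U : Set E) : Prop := ∃ Q : E → ℂ, IsPoly Q ∧ ∀ x, x ∈ U ↔ Q x ≠ 0

/-- properties that hold on a nonempty Zariski open set -/
def Gen (p : E → Prop) : Prop :=
  ∃ P : E → ℂ, IsPoly P ∧ (∃ x, P x ≠ 0) ∧ ∀ x, P x ≠ 0 → p x

/-- Zariski closure -/
def Zc (S : Set E) : Set E := {x | ∀ P : E → ℂ, IsPoly P → (∀ s ∈ S, P s = 0) → P x = 0}

end Poly

section Mats

variable {r : ℕ}

/-- group commutator of matrices -/
noncomputable def cm (A B : Mat r) : Mat r := A * B * A⁻¹ * B⁻¹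

/-- regular semisimple -/
def RS (C : Mat r) : Prop :=
  ∃ (P : Mat r) (d : Fin r → ℂ), P.det ≠ 0 ∧ Function.Injective d ∧ C = P * diagonal d * P⁻¹

/-- determinant of the trace form on the powers of `C` -/
noncomputable def gram (C : Mat r) : ℂ :=
  (Matrix.of fun i j : Fin r => (C ^ ((i : ℕ) + (j : ℕ))).trace).det

/-- `t` is a polynomial in `C` -/
def InA (C t : Mat r) : Prop := ∃ p : Polynomial ℂ, t = Polynomial.aeval C p

/-- Krylov matrix with columns `A ^ j u` -/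
noncomputable def kry (A : Mat r) (u : Fin r → ℂ) : Mat r :=
  Matrix.of fun i j => (A ^ (j : ℕ) *ᵥ u) i

/-- Jordan shape: diagonal `μ`, superdiagonal `η` -/
def jb (μ η : Fin r → ℂ) : Mat r :=
  Matrix.of fun i j => if i = j then μ i else if (j : ℕ) = (i : ℕ) + 1 then η i else 0

/-- all entries are algebraic integers -/
def IntB (M : Mat r) : Prop := ∀ i j, IsIntegral ℤ (M i j)

/-- `SL_r(O_L)` -/
def IntSL (L : IntermediateField ℚ ℂ) (M : Mat r) : Prop :=
  (∀ i j, M i j ∈ L) ∧ IntB M ∧ M.det = 1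

/-- scalar multiples of elements of `SL_r(O_L)` -/
def Gp (L : IntermediateField ℚ ℂ) (M : Mat r) : Prop :=
  ∃ (c : ℂ) (N : Mat r), c ≠ 0 ∧ IntSL L N ∧ M = c • N

/-- number fields that contain a primitive fifth and a primitive `r`-th root of unity -/
def Good (L : IntermediateField ℚ ℂ) (r : ℕ) : Prop :=
  FiniteDimensional ℚ L ∧ (∃ ζ ∈ L, IsPrimitiveRoot ζ 5) ∧ ∃ ω ∈ L, IsPrimitiveRoot ω r

/-- a subspace is invariant under a family of matrices -/
def Inv {ι : Type} (f : ι → Mat r) (N : Submodule ℂ (Fin r → ℂ)) : Prop :=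
  ∀ k, ∀ v ∈ N, f k *ᵥ v ∈ N

/-- semisimple family of matrices -/
def Semis {ι : Type} (f : ι → Mat r) : Prop :=
  ∀ N, Inv f N → ∃ N', Inv f N' ∧ IsCompl N N'

/-- irreducible pair -/
def Irr (A B : Mat r) : Prop :=
  ∀ N : Submodule ℂ (Fin r → ℂ), (∀ v ∈ N, A *ᵥ v ∈ N) → (∀ v ∈ N, B *ᵥ v ∈ N) → N = ⊥ ∨ N = ⊤

/-- commutant of a family -/
def cent {ι : Type} (f : ι → Mat r) : Submodule ℂ (Mat r) where
  carrier := {Y | ∀ k, Y * f k = f k * Y}
  add_mem' := by
    intro X Y hX hY k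
    rw [add_mul, mul_add, hX k, hY k]
  zero_mem' := by
    intro k
    simp
  smul_mem' := by
    intro c X hX k
    rw [smul_mul_assoc, mul_smul_comm, hX k]

/-- only scalars commute with the family -/
def Schur {ι : Type} (f : ι → Mat r) : Prop := ∀ Y ∈ cent f, ∃ c : ℂ, Y = c • (1 : Mat r)

/-- `Z ↦ Y Z - Z Y` -/
noncomputable def adm (Y : Mat r) : Mat r →ₗ[ℂ] Mat r :=
  LinearMap.mulLeft ℂ Y - LinearMap.mulRight ℂ Y

/-- first order deformations of `Y` that keep the rank of `adm Y` -/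
def TY (Y : Mat r) : Submodule ℂ (Mat r) where
  carrier := {X | ∀ Z, Y * Z = Z * Y → X * Z - Z * X ∈ LinearMap.range (adm Y)}
  add_mem' := by
    intro X X' hX hX' Z hZ
    have := add_mem (hX Z hZ) (hX' Z hZ)
    rwa [show X * Z - Z * X + (X' * Z - Z * X') = (X + X') * Z - Z * (X + X') by
      rw [add_mul, mul_add]; abel] at this
  zero_mem' := by
    intro Z _
    simp
  smul_mem' := by
    intro c X hX Z hZ
    have := Submodule.smul_mem _ c (hX Z hZ)
    rwa [show c • (X * Z - Z * X) = c • X * Z - Z * c • X by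
      rw [smul_sub, smul_mul_assoc, mul_smul_comm]] at this

/-- genericity condition on `B` used in the spanning argument -/
def PMgood [NeZero r] (B : Mat r) : Prop :=
  (∀ i j, B i j ≠ 0) ∧
    ∀ j l, j ≠ 0 → l ≠ 0 → j ≠ l → B 0 j * B j l * B l 0 ≠ B 0 l * B l j * B j 0

/-- difference of the characteristic polynomials of `A` and `W A` at `z` -/
noncomputable def Gv (z : ℂ) (A W : Mat r) : ℂ :=
  (z • (1 : Mat r) - A).det - (z • (1 : Mat r) - W * A).det

/-- matrix of the linear system of the chart -/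
noncomputable def Mm [NeZero r] (d : Fin r → ℂ) (Y W : Mat r) : Mat r :=
  Matrix.of fun i q => if i = 0 then (if q = 0 then 1 else 0) else
    (((d i • (1 : Mat r) - W * Y).adjugate * W - (d i • (1 : Mat r) - Y).adjugate) *ᵥ
      (fun _ => 1)) q

end Mats

section System

variable {r : ℕ} {J : Type}

/-- group words in the constants `cs` and the coordinates with index in `T` -/
inductive Wordy (cs : Set (Mat r)) (T : Set J) : ((J → Mat r) → Mat r) → Prop
  | one : Wordy cs T fun _ => 1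
  | const (c : Mat r) (hc : c ∈ cs) : Wordy cs T fun _ => c
  | var (k : J) (hk : k ∈ T) : Wordy cs T fun y => y k
  | mul {f g : (J → Mat r) → Mat r} : Wordy cs T f → Wordy cs T g → Wordy cs T fun y => f y * g y
  | inv {f : (J → Mat r) → Mat r} : Wordy cs T f → Wordy cs T fun y => (f y)⁻¹

/-- all coordinates invertible -/
def UU (r : ℕ) (J : Type) : Set (J → Mat r) := {y | ∀ k, (y k).det ≠ 0}

/-- images of the generators: the coordinate at a puncture is a conjugating matrix -/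
noncomputable def vals [DecidableEq J] (H : Finset J) (cc : J → Mat r) (y : J → Mat r) (k : J) :
    Mat r :=
  if k ∈ H then y k * cc k * (y k)⁻¹ else y k

/-- Abstract surface relation `[a,b][α,β] w = 1`. -/
structure Sys (r : ℕ) (J : Type) [DecidableEq J] where
  a : J
  b : J
  α : J
  β : J
  H : Finset J
  cc : J → Mat r
  w : (J → Mat r) → Mat r
  P : J → (J → Mat r) → Mat r
  Mid : J → (J → Mat r) → Mat r
  S : J → (J → Mat r) → Mat r
  ab : a ≠ b
  aα : a ≠ α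
  aβ : a ≠ β
  bα : b ≠ α
  bβ : b ≠ β
  αβ : α ≠ β
  aH : a ∉ H
  bH : b ∉ H
  αH : α ∉ H
  βH : β ∉ H
  cc_det : ∀ k, (cc k).det ≠ 0
  w_word : Wordy ∅ {j | j ≠ a ∧ j ≠ b ∧ j ≠ α ∧ j ≠ β} w
  P_word : ∀ k, Wordy (Set.range cc) {j | (j ≠ a ∧ j ≠ b ∧ j ≠ α ∧ j ≠ β) ∧ j ≠ k} (P k)
  Mid_word : ∀ k, Wordy (Set.range cc) {j | (j ≠ a ∧ j ≠ b ∧ j ≠ α ∧ j ≠ β) ∧ j ≠ k} (Mid k)
  S_word : ∀ k, Wordy (Set.range cc) {j | (j ≠ a ∧ j ≠ b ∧ j ≠ α ∧ j ≠ β) ∧ j ≠ k} (S k)
  split : ∀ k, (k ≠ a ∧ k ≠ b ∧ k ≠ α ∧ k ≠ β) → ∀ y,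
    w (vals H cc y) = P k y * (y k * Mid k y * (y k)⁻¹) * S k y
  det_w : ∀ y ∈ UU r J, (w (vals H cc y)).det = 1
  ann : ∀ y ∈ UU r J, ∀ Y : Mat r,
    (∀ k, (k ≠ a ∧ k ≠ b ∧ k ≠ α ∧ k ≠ β) →
      Commute ((P k y)⁻¹ * Y * P k y) (y k * Mid k y * (y k)⁻¹)) →
    ∀ k, (k ≠ a ∧ k ≠ b ∧ k ≠ α ∧ k ≠ β) → Commute Y (vals H cc y k)

namespace Sys

variable [DecidableEq J] (σ : Sys r J)

/-- indices outside the first two handles -/
def Rest (k : J) : Prop := k ≠ σ.a ∧ k ≠ σ.b ∧ k ≠ σ.α ∧ k ≠ σ.β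

noncomputable def val (y : J → Mat r) : J → Mat r := vals σ.H σ.cc y

noncomputable def W' (y : J → Mat r) : Mat r := σ.w (σ.val y)

noncomputable def W (y : J → Mat r) : Mat r := cm (y σ.α) (y σ.β) * σ.W' y

noncomputable def rel (y : J → Mat r) : Mat r := cm (y σ.a) (y σ.b) * σ.W y

/-- the representation variety (in `GL_r`) -/
def R : Set (J → Mat r) := {y | y ∈ UU r J ∧ σ.rel y = 1}

/-- integral points up to scalars -/
def St (L : IntermediateField ℚ ℂ) : Set (J → Mat r) := {y | (∀ k, Gp L (y k)) ∧ σ.rel y = 1}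

noncomputable def Dk (k : Option J) (y : J → Mat r) : Mat r :=
  match k with
  | none => σ.W' y
  | some j => σ.P j y * σ.S j y

noncomputable def Ck (k : Option J) (y : J → Mat r) : Mat r :=
  (σ.Dk k y)⁻¹ * (y σ.α)⁻¹ * σ.W y * y σ.a

/-- twist along a curve that crosses both handles -/
noncomputable def dm (k : Option J) (y : J → Mat r) (t : Mat r) : J → Mat r := fun j =>
  if j = σ.a then t * y σ.a * t⁻¹ else if j = σ.b then y σ.b * t⁻¹ else
  if j = σ.β then σ.Dk k y * t * (σ.Dk k y)⁻¹ * y σ.β else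
  if k = some j then σ.S j y * t * (σ.S j y)⁻¹ * y j else y j

/-- global conjugation -/
noncomputable def cj (g : Mat r) (y : J → Mat r) : J → Mat r := fun k =>
  if k ∈ σ.H then g * y k else g * y k * g⁻¹

/-- the base family -/
noncomputable def fam (y : J → Mat r) (A γ B : Mat r) : J → Mat r := fun k =>
  if k = σ.a then A else if k = σ.b then B else if k = σ.α then B * γ⁻¹ else
  if k = σ.β then γ * A * γ⁻¹ else y k

end Sys

/-- `Z` is stable under the simple move that multiplies coordinate `i` by a polynomial in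
coordinate `j` -/
def SM [DecidableEq J] (Z : Set (J → Mat r)) (i j : J) : Prop :=
  ∀ y ∈ Z, y ∈ UU r J → RS (y j) → ∀ t, InA (y j) t → t.det ≠ 0 →
    Function.update y i (y i * t) ∈ Z

/-- the properties of the Zariski closure of the integral points that are used -/
structure MoveInv [DecidableEq J] (σ : Sys r J) (Z : Set (J → Mat r)) : Prop where
  closed : Zc Z ⊆ Z
  rel : ∀ y ∈ Z, y ∈ UU r J → σ.rel y = 1
  ma : SM Z σ.b σ.a
  mb : SM Z σ.a σ.b
  mβ : SM Z σ.α σ.β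
  md : ∀ k : Option J, (∀ j, k = some j → σ.Rest j) → ∀ y ∈ Z, y ∈ UU r J → RS (σ.Ck k y) →
    ∀ t, InA (σ.Ck k y) t → t.det ≠ 0 → σ.dm k y t ∈ Z

/-- near `x₀` every point agrees with a point of `Z` up to the `b` coordinate and a rank one
change of the `a` coordinate -/
def Loc [DecidableEq J] [NeZero r] (σ : Sys r J) (Z : Set (J → Mat r)) (x₀ : J → Mat r) : Prop :=
  ∀ᶠ x in 𝓝 x₀, ∃ z ∈ Z, z ∈ UU r J ∧ RS (z σ.a) ∧
    (∃ w : Fin r → ℂ, w 0 = 0 ∧ x σ.a = z σ.a + vecMulVec (fun _ => 1) w) ∧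
    ∀ k, k ≠ σ.a → k ≠ σ.b → x k = z k

/-- decomposition into `m` blocks with scalar commutant -/
def Blocks {ι : Type} (f : ι → Mat r) (m : ℕ) : Prop :=
  ∃ e : Fin m → Mat r, (∀ i, e i ≠ 0) ∧ (∀ i, e i * e i = e i) ∧
    (∀ i j, i ≠ j → e i * e j = 0) ∧ ∑ i, e i = 1 ∧ (∀ i, e i ∈ cent f) ∧
    ∀ i, ∀ Y ∈ cent f, e i * Y * e i = Y → ∃ c : ℂ, Y = c • e i

end System

section Flows

variable {E : Type} [NormedAddCommGroup E] [NormedSpace ℂ E]

/-- `v` is the velocity at `x` of a local one parameter family of maps that preserve `Z` -/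
def Flow (Z : Set E) (x v : E) : Prop :=
  ∃ F : E × ℂ → E, ContDiffAt ℂ 1 F (x, 0) ∧ (∀ᶠ y in 𝓝 x, F (y, 0) = y) ∧
    (∀ᶠ q in 𝓝 (x, (0 : ℂ)), q.1 ∈ Z → F q ∈ Z) ∧ HasDerivAt (fun τ : ℂ => F (x, τ)) v 0

end Flows

end Vale.Agent.P002
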